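import Mathlib
import Vale.Agent.Lib.Helper2.Cube
import Vale.Agent.Lib.Helper4.ChebLemma
import Vale.Agent.Lib.Helper4.BiasPoly
import Vale.Agent.Lib.Helper4.LevelOne
import Vale.Agent.Lib.Helper4.Numeric

namespace Vale.Agent.Results.P047.ConstantFactor

open Finset Vale.Agent.Lib.Helper2.Cube Vale.Agent.Lib.Helper4.ChebLemma
  Vale.Agent.Lib.Helper4.LevelOne Vale.Agent.Lib.Helper4.Numeric

/-- For a Boolean function on the cube all of whose Fourier coefficients above level `d`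
vanish (`d ≥ 2`), the sum of the absolute values of the level-one coefficients is at most
`(49/50) d`; it is at most `d - 1` when `d` is even; and for every `r` with `d ≤ 2 r + 2` it is at
most `(2 r + 1) - 2 q / ((1 + q) a)`, where `a = sin (π / (2 (2 r + 1)))` and
`q = (1 - a)^(2 d)`. -/
theorem result (n d : ℕ) (hd : 2 ≤ d) (f : (Fin n → ℤˣ) → ℝ)
    (hf : ∀ x, f x = 1 ∨ f x = -1)
    (hdeg : ∀ S : Finset (Fin n), d < S.card → fhat f S = 0) :
    (∑ i, |fhat f {i}| ≤ 49 / 50 * (d : ℝ)) ∧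
    (Even d → ∑ i, |fhat f {i}| ≤ (d : ℝ) - 1) ∧
    (∀ r : ℕ, d ≤ 2 * r + 2 →
      ∑ i, |fhat f {i}| ≤ 2 * (r : ℝ) + 1
        - 2 * (1 - Real.sin (Real.pi / (2 * (2 * (r : ℝ) + 1)))) ^ (2 * d)
          / ((1 + (1 - Real.sin (Real.pi / (2 * (2 * (r : ℝ) + 1)))) ^ (2 * d))
              * Real.sin (Real.pi / (2 * (2 * (r : ℝ) + 1))))) := by
  have hd1 : 1 ≤ d := by omega
  have key : ∀ r : ℕ, d ≤ 2 * r + 2 → ∑ i, |fhat f {i}| ≤ bnd r d :=
    fun r hr => level_one_abs_formula d r hd1 hr f hf hdeg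
  refine ⟨?_, ?_, ?_⟩
  · exact (key ((d - 1) / 2) (by omega)).trans (bnd_le d hd)
  · intro he
    obtain ⟨k, hk⟩ := he
    have h1 := key ((d - 1) / 2) (by omega)
    have h2 := bnd_le_odd ((d - 1) / 2) d
    have h3 : (2 * (((d - 1) / 2 : ℕ) : ℝ) + 1) = (d : ℝ) - 1 := by
      have : 2 * ((d - 1) / 2) + 1 = d - 1 := by omega
      have hc : ((2 * ((d - 1) / 2) + 1 : ℕ) : ℝ) = ((d - 1 : ℕ) : ℝ) := by rw [this]
      rw [Nat.cast_sub hd1] at hc
      push_cast at hc
      linarith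
    linarith
  · intro r hr
    have h := key r hr
    unfold bnd at h
    rw [xn_zero_eq] at h
    exact h

end Vale.Agent.Results.P047.ConstantFactor
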