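import Mathlib
import Vale.Agent.Lib.Helper2.Cube

namespace Vale.Agent.Results.P047.LevelOneBelowDegree

open Finset Vale.Agent.Lib.Helper2.Cube

variable {n : ℕ}

theorem parseval (f : (Fin n → ℤˣ) → ℝ) (hf : ∀ x, f x = 1 ∨ f x = -1) :
    ∑ S, fhat f S * fhat f S = 1 := by
  rw [← plancherel]
  have : ∀ x, f x * f x = 1 := by
    intro x; rcases hf x with h | h <;> rw [h] <;> norm_num
  simp_rw [this]
  rw [Finset.sum_const, Finset.card_univ, nsmul_eq_mul, mul_one, card_cube]
  exact div_self (by positivity)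

theorem influence (f : (Fin n → ℤˣ) → ℝ) (hf : ∀ x, f x = 1 ∨ f x = -1) (i : Fin n) :
    |fhat f {i}| ≤ ∑ S, (if i ∈ S then fhat f S * fhat f S else 0) := by
  have h2 : fhat (fun x => f x - f (flip i x)) {i} = 2 * fhat f {i} := by
    rw [fhat_sub, fhat_flip]
    simp
    ring
  have habs : ∀ x, |f x - f (flip i x)| = 1 - f x * f (flip i x) := by
    intro x
    rcases hf x with h | h <;> rcases hf (flip i x) with h' | h' <;> rw [h, h'] <;> norm_num
  have hpos : (0 : ℝ) < 2 ^ n := by positivity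
  have h3 : |fhat (fun x => f x - f (flip i x)) {i}|
      ≤ (∑ x, (1 - f x * f (flip i x))) / 2 ^ n := by
    simp only [fhat_eq]
    rw [abs_div, abs_of_pos hpos]
    apply div_le_div_of_nonneg_right _ hpos.le
    calc |∑ x, (f x - f (flip i x)) * chi {i} x|
        ≤ ∑ x, |(f x - f (flip i x)) * chi {i} x| := Finset.abs_sum_le_sum_abs _ _
      _ = ∑ x, (1 - f x * f (flip i x)) := by
          apply Finset.sum_congr rfl
          intro x _
          rw [abs_mul, chi_abs, mul_one, habs]
  have h4 : (∑ x, (1 - f x * f (flip i x))) / 2 ^ n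
      = 1 - ∑ S, fhat f S * ((if i ∈ S then -1 else 1) * fhat f S) := by
    rw [Finset.sum_sub_distrib, sub_div, plancherel]
    congr 1
    · rw [Finset.sum_const, Finset.card_univ, nsmul_eq_mul, mul_one, card_cube]
      exact div_self hpos.ne'
    · apply Finset.sum_congr rfl
      intro S _
      rw [fhat_flip]
  rw [h2, h4] at h3
  rw [abs_mul, abs_of_pos (by norm_num : (0 : ℝ) < 2)] at h3
  have h5 : ∀ S : Finset (Fin n),
      2 * (if i ∈ S then fhat f S * fhat f S else 0)
      = fhat f S * fhat f S - fhat f S * ((if i ∈ S then -1 else 1) * fhat f S) := by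
    intro S
    split_ifs <;> ring
  have h6 : 2 * ∑ S, (if i ∈ S then fhat f S * fhat f S else 0)
      = 1 - ∑ S, fhat f S * ((if i ∈ S then -1 else 1) * fhat f S) := by
    rw [Finset.mul_sum, Finset.sum_congr rfl (fun S _ => h5 S), Finset.sum_sub_distrib,
      parseval f hf]
  linarith

theorem fhat_half (f : (Fin n → ℤˣ) → ℝ) (S : Finset (Fin n)) (hS : S ≠ ∅) :
    fhat (fun x => (1 - f x) / 2) S = - fhat f S / 2 := by
  simp only [fhat_eq]
  have : ∑ x, (1 - f x) / 2 * chi S x = (∑ x, chi S x - ∑ x, f x * chi S x) / 2 := by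
    rw [← Finset.sum_sub_distrib, Finset.sum_div]
    apply Finset.sum_congr rfl
    intro x _
    ring
  rw [this, sum_chi, if_neg hS]
  ring

theorem granular_bool (d : ℕ) (hd : 1 ≤ d) (f : (Fin n → ℤˣ) → ℝ)
    (hf : ∀ x, f x = 1 ∨ f x = -1)
    (hdeg : ∀ S : Finset (Fin n), d < S.card → fhat f S = 0)
    (S : Finset (Fin n)) (hS : S ≠ ∅) :
    fhat f S * fhat f S ≥ |fhat f S| / 2 ^ (d - 1) := by
  have hint : ∀ x, ∃ m : ℤ, (1 - f x) / 2 = m := by
    intro x
    rcases hf x with h | h
    · exact ⟨0, by rw [h]; norm_num⟩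
    · exact ⟨1, by rw [h]; norm_num⟩
  have hdeg' : ∀ T : Finset (Fin n), d < T.card → fhat (fun x => (1 - f x) / 2) T = 0 := by
    intro T hT
    have hT0 : T ≠ ∅ := by
      intro h; rw [h] at hT; simp at hT
    rw [fhat_half f T hT0, hdeg T hT]
    simp
  obtain ⟨m, hm⟩ := granular d (fun x => (1 - f x) / 2) hint hdeg' S
  rw [fhat_half f S hS] at hm
  have hpow : (2 : ℝ) ^ d = 2 * 2 ^ (d - 1) := by
    rw [← pow_succ']
    congr 1
    omega
  have hP : (0 : ℝ) < 2 ^ (d - 1) := by positivity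
  have hF : fhat f S = -(m : ℝ) / 2 ^ (d - 1) := by
    rw [hpow] at hm
    field_simp
    linarith
  by_cases hm0 : m = 0
  · rw [hF, hm0]; simp
  · have hm1 : (1 : ℝ) ≤ |(m : ℝ)| := by
      have : (1 : ℤ) ≤ |m| := Int.one_le_abs hm0
      exact_mod_cast this
    rw [ge_iff_le, ← abs_mul_abs_self (fhat f S)]
    have habs : |fhat f S| = |(m : ℝ)| / 2 ^ (d - 1) := by
      rw [hF, abs_div, abs_neg, abs_of_pos hP]
    have hge : 1 / 2 ^ (d - 1) ≤ |fhat f S| := by
      rw [habs]
      exact div_le_div_of_nonneg_right hm1 hP.le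
    calc |fhat f S| / 2 ^ (d - 1) = |fhat f S| * (1 / 2 ^ (d - 1)) := by ring
      _ ≤ |fhat f S| * |fhat f S| :=
          mul_le_mul_of_nonneg_left hge (abs_nonneg _)

/-- For a Boolean function of degree at most `d` (with `d ≥ 1`) on the cube, the sum of the
absolute values of the level-one Fourier coefficients is at most
`d / (1 + (d - 1) / 2^(d-1))`, which is smaller than `d` as soon as `d ≥ 2`. -/
theorem result (n d : ℕ) (hd : 1 ≤ d) (f : (Fin n → ℤˣ) → ℝ)
    (hf : ∀ x, f x = 1 ∨ f x = -1)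
    (hdeg : ∀ S : Finset (Fin n), d < S.card → fhat f S = 0) :
    ∑ i, |fhat f {i}| ≤ (d : ℝ) / (1 + ((d : ℝ) - 1) / 2 ^ (d - 1)) := by
  set F : Finset (Fin n) → ℝ := fun S => fhat f S with hFdef
  set A : ℝ := ∑ i, |F {i}| with hA
  have hP : (0 : ℝ) < 2 ^ (d - 1) := by positivity
  have hd1 : (1 : ℝ) ≤ d := by exact_mod_cast hd
  -- step 1: A ≤ ∑_S |S| F S ^ 2
  have h1 : A ≤ ∑ S : Finset (Fin n), (S.card : ℝ) * (F S * F S) := by
    calc A ≤ ∑ i, ∑ S : Finset (Fin n), (if i ∈ S then F S * F S else 0) :=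
          Finset.sum_le_sum (fun i _ => influence f hf i)
      _ = ∑ S : Finset (Fin n), ∑ i, (if i ∈ S then F S * F S else 0) := Finset.sum_comm
      _ = ∑ S : Finset (Fin n), (S.card : ℝ) * (F S * F S) := by
          apply Finset.sum_congr rfl
          intro S _
          rw [Finset.sum_ite_mem, Finset.univ_inter, Finset.sum_const, nsmul_eq_mul]
  -- step 2: weights
  have h2 : ∑ S : Finset (Fin n), (S.card : ℝ) * (F S * F S)
      ≤ ∑ S : Finset (Fin n), ((d : ℝ) * (F S * F S)
          - ((d : ℝ) - 1) * (if S.card = 1 then F S * F S else 0)) := by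
    apply Finset.sum_le_sum
    intro S _
    have hsq : 0 ≤ F S * F S := mul_self_nonneg _
    by_cases hc : d < S.card
    · have : F S = 0 := hdeg S hc
      rw [this]; simp
    · have hc' : (S.card : ℝ) ≤ d := by exact_mod_cast (not_lt.mp hc)
      by_cases h1 : S.card = 1
      · rw [if_pos h1, h1]; push_cast; linarith
      · rw [if_neg h1]
        have : (S.card : ℝ) * (F S * F S) ≤ (d : ℝ) * (F S * F S) :=
          mul_le_mul_of_nonneg_right hc' hsq
        linarith
  have h3 : ∑ S : Finset (Fin n), ((d : ℝ) * (F S * F S)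
          - ((d : ℝ) - 1) * (if S.card = 1 then F S * F S else 0))
      = (d : ℝ) - ((d : ℝ) - 1) * ∑ S : Finset (Fin n), (if S.card = 1 then F S * F S else 0) := by
    rw [Finset.sum_sub_distrib, ← Finset.mul_sum, ← Finset.mul_sum, parseval f hf, mul_one]
  -- step 3: level one weight
  have h4 : ∑ i, F {i} * F {i}
      ≤ ∑ S : Finset (Fin n), (if S.card = 1 then F S * F S else 0) := by
    have hinj : Function.Injective (fun i : Fin n => ({i} : Finset (Fin n))) :=
      Finset.singleton_injective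
    have e : ∑ i, F {i} * F {i}
        = ∑ S ∈ Finset.univ.image (fun i : Fin n => ({i} : Finset (Fin n))),
            (if S.card = 1 then F S * F S else 0) := by
      rw [Finset.sum_image (fun a _ b _ h => hinj h)]
      apply Finset.sum_congr rfl
      intro i _
      simp
    rw [e]
    apply Finset.sum_le_sum_of_subset_of_nonneg (Finset.subset_univ _)
    intro S _ _
    split_ifs
    · exact mul_self_nonneg _
    · exact le_refl _
  have h5 : A / 2 ^ (d - 1) ≤ ∑ i, F {i} * F {i} := by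
    rw [hA, Finset.sum_div]
    apply Finset.sum_le_sum
    intro i _
    exact granular_bool d hd f hf hdeg {i} (Finset.singleton_ne_empty i)
  have h6 : A ≤ (d : ℝ) - ((d : ℝ) - 1) * (A / 2 ^ (d - 1)) := by
    have hm : ((d : ℝ) - 1) * (A / 2 ^ (d - 1))
        ≤ ((d : ℝ) - 1) * ∑ S : Finset (Fin n), (if S.card = 1 then F S * F S else 0) :=
      mul_le_mul_of_nonneg_left (le_trans h5 h4) (by linarith)
    linarith [h1, h2, h3]
  have hden : (0 : ℝ) < 1 + ((d : ℝ) - 1) / 2 ^ (d - 1) := by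
    have : 0 ≤ ((d : ℝ) - 1) / 2 ^ (d - 1) := div_nonneg (by linarith) hP.le
    linarith
  have h7 : A ≤ (d : ℝ) / (1 + ((d : ℝ) - 1) / 2 ^ (d - 1)) := by
    rw [le_div_iff₀ hden]
    have : A * (1 + ((d : ℝ) - 1) / 2 ^ (d - 1)) = A + ((d : ℝ) - 1) * (A / 2 ^ (d - 1)) := by
      ring
    linarith
  exact h7

end Vale.Agent.Results.P047.LevelOneBelowDegree
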